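import Vale.Agent.N242.Sharp
import Vale.Agent.P242.H448.Asm

/-!
# P242: charts with a constant arbitrarily close to `1` from the output of Part A
-/

open Set Metric Filter Topology
open scoped RealInnerProductSpace

noncomputable section

universe u

namespace Vale.Agent.N242

open Vale.Agent.P242 Vale.Agent.P242.PB Vale.Agent.P242.H696

/-- Part B with distortion `4 η`. -/
def PartB' (η : ℝ) : Prop :=
  ∀ n : ℕ, ∃ C₀ : ℝ, 2 ≤ C₀ ∧ ∀ C₁ : ℝ, 1 ≤ C₁ → ∃ c : ℝ, 0 < c ∧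
    ∀ Λ τ : ℝ, 1 ≤ τ → τ ^ 2 ≤ c * Λ → ∀ B : ℝ, 1 ≤ B → ∃ ε₀ : ℝ, 0 < ε₀ ∧
      ∀ ε δ : ℝ, 0 < ε → ε ≤ ε₀ → 0 < δ → δ ≤ ε₀ →
        ∀ (X : Type u) [MetricSpace X] (S : H71.PB n X) (r₀ : ℝ), S.Hyp r₀ C₀ C₁ Λ τ B ε δ →
          ∃ F : X → H71.E n, (∀ x y, |dist (F x) (F y) - dist x y| ≤ 4 * η * dist x y) ∧
            (CompleteSpace X → ∀ (x₀ : X) (k : ℕ), S.Dense r₀ C₀ Λ ε x₀ k →
              ball (F x₀) (H71.rr r₀ Λ k / 4) ⊆ F '' ball x₀ (10 * H71.rr r₀ Λ k))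

/-- **Part B with distortion `4 η`.** -/
theorem partB' {η : ℝ} (hη : 0 < η) (hη1 : η ≤ 1) : PartB'.{u} η := by
  intro n
  obtain ⟨c, hc, hglue⟩ := H266.glue n
  have hρ : 0 ≤ √(n : ℝ) := Real.sqrt_nonneg _
  obtain ⟨C₀, hC₀⟩ : ∃ C₀ : ℝ, C₀ = 5 / 2 * (√(n : ℝ) + 4) := ⟨_, rfl⟩
  have hC₀10 : 10 ≤ C₀ := by rw [hC₀]; linarith
  refine ⟨C₀, by linarith, fun C₁ hC₁ => ?_⟩
  obtain ⟨θ, θ', hθ, hθ', c', hc', h2⟩ := exists_const hρ hc hC₀ hC₁
  have hθ0 : 0 < θ := by linarith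
  refine ⟨min c' (1 / 100), lt_min hc' (by norm_num), fun Λ τ hτ hΛτ B hB => ?_⟩
  have hΛ0 : 0 < Λ := by
    by_contra hneg
    have h3 : τ ^ 2 ≤ 0 := hΛτ.trans
      (mul_nonpos_of_nonneg_of_nonpos (lt_min hc' (by norm_num)).le (not_lt.1 hneg))
    nlinarith
  have hΛc : τ ^ 2 ≤ c' * Λ :=
    hΛτ.trans (mul_le_mul_of_nonneg_right (min_le_left _ _) hΛ0.le)
  have hΛ100 : 100 ≤ Λ := by
    have h3 : τ ^ 2 ≤ 1 / 100 * Λ :=
      hΛτ.trans (mul_le_mul_of_nonneg_right (min_le_right _ _) hΛ0.le)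
    nlinarith
  obtain ⟨B3, hB3, h3⟩ := h2 Λ τ hτ hΛc B hB
  obtain ⟨ε₁, hε₁, h4⟩ := h3 (1 / (200 * Λ)) (by positivity)
  -- the constants
  have hC₁0 : 0 < C₁ := by linarith
  have hB0 : 0 < B := by linarith
  have hθB : 0 < θ + 2 * B3 := by linarith
  obtain ⟨e', he'⟩ : ∃ e : ℝ, e = min ε₁ (min (1 / (100 * Λ)) (min (1 / (20 * C₁))
    (1 / (100 * (θ + 2 * B3))))) := ⟨_, rfl⟩
  have he0' : 0 < e' := by rw [he']; positivity
  obtain ⟨e, he⟩ : ∃ e : ℝ, e = min e' (min (η ^ 2) (min (η / Λ) (η / (θ + 2 * B3)))) := ⟨_, rfl⟩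
  have he0 : 0 < e := by rw [he]; positivity
  have f0 : e ≤ e' := by rw [he]; exact min_le_left _ _
  have f1 : e ≤ η ^ 2 := by rw [he]; exact (min_le_right _ _).trans (min_le_left _ _)
  have f2 : e ≤ η / Λ := by
    rw [he]; exact (min_le_right _ _).trans ((min_le_right _ _).trans (min_le_left _ _))
  have f3 : e ≤ η / (θ + 2 * B3) := by
    rw [he]; exact (min_le_right _ _).trans ((min_le_right _ _).trans (min_le_right _ _))
  rw [le_div_iff₀ (by positivity)] at f2 f3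
  refine ⟨e / (1 + B), by positivity, ?_⟩
  intro ε δ hε hεe hδ hδe X _ S r₀ H
  -- enlarge ε
  obtain ⟨ε', hε'⟩ : ∃ ε' : ℝ, ε' = max ε (B * δ) := ⟨_, rfl⟩
  have hεε' : ε ≤ ε' := by rw [hε']; exact le_max_left _ _
  have hδε : B * δ ≤ ε' := by rw [hε']; exact le_max_right _ _
  have hε'0 : 0 < ε' := hε.trans_le hεε'
  have hee : e / (1 + B) ≤ e := div_le_self he0.le (by linarith)
  have hε'e : ε' ≤ e := by
    rw [hε']
    refine max_le (hεe.trans hee) ?_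
    have h5 : B * δ ≤ B * (e / (1 + B)) := mul_le_mul_of_nonneg_left hδe hB0.le
    refine h5.trans ?_
    rw [mul_div_assoc', div_le_iff₀ (by linarith)]
    nlinarith
  have hδe' : δ ≤ e := hδe.trans hee
  have H' : S.Hyp r₀ C₀ C₁ Λ τ B ε' δ := hyp_mono hΛ0 hεε' H
  have e1 : e ≤ ε₁ := f0.trans (by rw [he']; exact min_le_left _ _)
  have e2 : e ≤ 1 / (100 * Λ) :=
    f0.trans (by rw [he']; exact (min_le_right _ _).trans (min_le_left _ _))
  have e3 : e ≤ 1 / (20 * C₁) := f0.trans (by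
    rw [he']; exact (min_le_right _ _).trans ((min_le_right _ _).trans (min_le_left _ _)))
  have e4 : e ≤ 1 / (100 * (θ + 2 * B3)) := f0.trans (by
    rw [he']; exact (min_le_right _ _).trans ((min_le_right _ _).trans (min_le_right _ _)))
  obtain ⟨κ, s0, hκ0, hκ, h5⟩ :=
    h4 ε' δ hε'0 (hε'e.trans e1) hδ (hδe'.trans e1) hδε r₀ H.r₀_pos
  rw [le_div_iff₀ (by positivity)] at e2 e3 e4 hκ
  have SP : SmallPar (par r₀ C₀ C₁ Λ τ B ε' δ) κ θ θ' B3 :=
    { r0 := H.r₀_pos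
      hΛ := hΛ100
      C0 := show 1 ≤ C₀ by linarith
      C1 := hC₁
      B := hB0.le
      ε0 := hε'0.le
      εΛ := by
        change 100 * ε' * Λ ≤ 1
        have h6 := mul_le_mul_of_nonneg_right hε'e (show 0 ≤ 100 * Λ by positivity)
        linarith
      εC := by
        change 20 * C₁ * ε' ≤ 1
        have h6 := mul_le_mul_of_nonneg_right hε'e (show 0 ≤ 20 * C₁ by positivity)
        linarith
      Bδ := hδε
      κ0 := hκ0
      κΛ := by
        change 200 * κ * Λ ≤ 1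
        linarith
      θ1 := hθ
      θ'1 := hθ'
      hB3 := hB3
      sm := by
        change θ * ε' + 2 * B3 * δ ≤ 1 / 50
        have h8 : θ * ε' ≤ θ * e := mul_le_mul_of_nonneg_left hε'e hθ0.le
        have h9 : 2 * B3 * δ ≤ 2 * B3 * e := mul_le_mul_of_nonneg_left hδe' (by linarith)
        linarith }
  rcases isEmpty_or_nonempty X with hX | hX
  · exact ⟨fun _ => 0, fun x => (hX.false x).elim, fun _ x => (hX.false x).elim⟩
  have a1 : √(par r₀ C₀ C₁ Λ τ B ε' δ).ε ≤ η := by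
    change √ε' ≤ η
    rw [Real.sqrt_le_left hη.le]
    exact hε'e.trans f1
  have a2 : (par r₀ C₀ C₁ Λ τ B ε' δ).ε * (par r₀ C₀ C₁ Λ τ B ε' δ).Λ ≤ η := by
    change ε' * Λ ≤ η
    exact (mul_le_mul_of_nonneg_right hε'e hΛ0.le).trans f2
  have a3 : θ * (par r₀ C₀ C₁ Λ τ B ε' δ).ε + 2 * B3 * (par r₀ C₀ C₁ Λ τ B ε' δ).δ ≤ η := by
    change θ * ε' + 2 * B3 * δ ≤ η
    have h8 : θ * ε' ≤ θ * e := mul_le_mul_of_nonneg_left hε'e hθ0.le
    have h9 : 2 * B3 * δ ≤ 2 * B3 * e := mul_le_mul_of_nonneg_left hδe' (by linarith)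
    linarith
  obtain ⟨G, hG1, hG2⟩ := sharpB SP (hyp_of H') hη1 a1 a2 a3
    (fun k s => step' hglue h5.num (hyp_of H') h5.num2 h5.num3 s)
  refine ⟨G, ?_, ?_⟩
  · intro x y
    rw [dist_eq_norm]
    exact hG1 x y
  · intro hXc x₀ k hD z hz
    have hr : 0 < H71.rr r₀ Λ k := div_pos H.r₀_pos (pow_pos hΛ0 k)
    have hz' : ‖z - G x₀‖ ≤ H71.rr r₀ Λ k / 4 := by
      rw [mem_ball, dist_eq_norm] at hz
      exact hz.le
    have hden : DenseAt (par r₀ C₀ C₁ Λ τ B ε' δ)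
        (toData S H'.symm (nonneg_of_hyp H')) x₀ k := by
      intro y hy j hj v hv
      have hy' : y ∈ ball x₀ (10 * H71.rr r₀ Λ k) := by
        rw [mem_ball, dist_comm]
        exact hy
      have hv' : S.nrm j y v ≤ H71.rr r₀ Λ j := hv
      obtain ⟨y', h8, h9⟩ := hD y hy' j hj v hv'
      refine ⟨y', h8, ?_⟩
      have h10 : 0 < H71.rr r₀ Λ j := div_pos H.r₀_pos (pow_pos hΛ0 j)
      exact le_trans h9 (mul_le_mul_of_nonneg_right hεε' h10.le)
    obtain ⟨x, hx1, hx2⟩ := hG2 x₀ k hden z hz'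
    refine ⟨x, ?_, hx2⟩
    rw [mem_ball, dist_comm]
    have hx1' : dist x₀ x ≤ 8 * H71.rr r₀ Λ k := hx1
    linarith

open H71 H719 in
/-- **Part A at `p` gives a chart at `p` with any constant `L > 1`.** -/
theorem chart_of' (n : ℕ) {L : ℝ} (hL : 1 < L) : ∃ C₀ : ℝ, 2 ≤ C₀ ∧
    ∀ {X : Type u} [MetricSpace X] [CompleteSpace X] {p : X}, H448.PartAAt n C₀ p →
      ∃ U : Set X, IsOpen U ∧ p ∈ U ∧ BiLipChart n L U := by
  obtain ⟨η, hη, hη8, hηL, hηL'⟩ : ∃ η : ℝ, 0 < η ∧ η ≤ 1 / 8 ∧ 1 + 4 * η ≤ L ∧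
      L⁻¹ ≤ 1 - 4 * η := by
    have h1 : L⁻¹ < 1 := inv_lt_one_of_one_lt₀ hL
    refine ⟨min (1 / 8) (min ((L - 1) / 4) ((1 - L⁻¹) / 4)),
      lt_min (by norm_num) (lt_min (by linarith) (by linarith)), min_le_left _ _, ?_, ?_⟩
    · have := (min_le_right (1 / 8 : ℝ) _).trans (min_le_left ((L - 1) / 4) ((1 - L⁻¹) / 4))
      linarith
    · have := (min_le_right (1 / 8 : ℝ) _).trans (min_le_right ((L - 1) / 4) ((1 - L⁻¹) / 4))
      linarith
  obtain ⟨C₀, hC₀, HB⟩ := partB'.{u} hη (by linarith) n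
  refine ⟨C₀, hC₀, ?_⟩
  intro X _ _ p hA
  obtain ⟨C₁, hC₁, HA⟩ := hA
  obtain ⟨c, hc, HB⟩ := HB C₁ hC₁
  obtain ⟨Λ, τ, B, hτ, hτΛ, hB1, HA⟩ := HA c hc
  have hτ2 : 1 ≤ τ ^ 2 := one_le_pow₀ hτ
  have hΛ0 : 0 < Λ := by
    by_contra h
    have : c * Λ ≤ 0 := mul_nonpos_of_nonneg_of_nonpos hc.le (not_lt.1 h)
    linarith
  obtain ⟨ε₀, hε₀, HB⟩ := HB Λ τ hτ hτΛ B hB1
  obtain ⟨ε, δ, hε, hεε, hδ, hδε, r₀, hr₀, S, hS, k, q, hq, hD⟩ := HA ε₀ hε₀
  obtain ⟨F, hF0, HF⟩ := HB ε δ hε hεε hδ hδε (closedBall p (r₀ / 4)) S r₀ hS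
  have hF : ∀ x y, dist x y / 2 ≤ dist (F x) (F y) ∧ dist (F x) (F y) ≤ 2 * dist x y := by
    intro x y
    have h1 := abs_le.1 (hF0 x y)
    have h2 : 0 ≤ dist x y := dist_nonneg
    have h3 : 4 * η * dist x y ≤ 1 / 2 * dist x y := mul_le_mul_of_nonneg_right (by linarith) h2
    constructor <;> linarith [h1.1, h1.2]
  have hcs : CompleteSpace (closedBall p (r₀ / 4)) := isClosed_closedBall.completeSpace_coe
  have HF := HF hcs q k hD
  have hr : 0 < rr r₀ Λ k := div_pos hr₀ (pow_pos hΛ0 k)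
  classical
  set G : X → E n := fun x => if h : x ∈ closedBall p (r₀ / 4) then F ⟨x, h⟩ else 0 with hG
  have hGF : ∀ x (h : x ∈ closedBall p (r₀ / 4)), G x = F ⟨x, h⟩ := fun x h => by
    simp only [hG, dif_pos h]
  set s : ℝ := min (rr r₀ Λ k / 4) (r₀ / 16) with hs
  have hs0 : 0 < s := lt_min (by positivity) (by positivity)
  set U : Set X := {x | x ∈ ball p (r₀ / 4) ∧ G x ∈ ball (F q) s} with hU
  have hsub : ∀ x ∈ U, x ∈ closedBall p (r₀ / 4) := fun x hx => ball_subset_closedBall hx.1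
  have hpU : p ∈ U := by
    refine ⟨mem_ball_self (by linarith), ?_⟩
    have h1 : G p = F q := by
      rw [hGF p (mem_closedBall_self (by linarith))]
      congr 1
      exact Subtype.ext hq.symm
    rw [h1]
    exact mem_ball_self hs0
  have hcont : ContinuousOn G (ball p (r₀ / 4)) := by
    refine LipschitzOnWith.continuousOn (K := 2) ?_
    refine LipschitzOnWith.of_dist_le_mul fun x hx z hz => ?_
    have hx' := ball_subset_closedBall hx
    have hz' := ball_subset_closedBall hz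
    rw [hGF x hx', hGF z hz']
    exact (hF ⟨x, hx'⟩ ⟨z, hz'⟩).2
  have hUo : IsOpen U := hcont.isOpen_inter_preimage isOpen_ball isOpen_ball
  refine ⟨U, hUo, hpU, H448.biLipChart_of (by linarith) G (fun x hx z hz => ?_) ?_⟩
  · rw [hGF x (hsub x hx), hGF z (hsub z hz)]
    have h := abs_le.1 (hF0 ⟨x, hsub x hx⟩ ⟨z, hsub z hz⟩)
    have hd : dist (⟨x, hsub x hx⟩ : closedBall p (r₀ / 4)) ⟨z, hsub z hz⟩ = dist x z := rfl
    rw [hd] at h
    have h2 : 0 ≤ dist x z := dist_nonneg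
    have h3 := mul_le_mul_of_nonneg_right hηL h2
    have h4 := mul_le_mul_of_nonneg_right hηL' h2
    constructor <;> linarith [h.1, h.2]
  · have key : G '' U = ball (F q) s := by
      refine Subset.antisymm ?_ ?_
      · rintro _ ⟨x, hx, rfl⟩
        exact hx.2
      · intro w hw
        have hw1 : w ∈ ball (F q) (rr r₀ Λ k / 4) := ball_subset_ball (min_le_left _ _) hw
        obtain ⟨y, -, hyw⟩ := HF hw1
        have h1 : dist y q < r₀ / 4 := by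
          have h2 := (hF y q).1
          rw [hyw] at h2
          have h3 : dist w (F q) < r₀ / 16 := lt_of_lt_of_le hw (min_le_right _ _)
          linarith
        have h2 : (y : X) ∈ ball p (r₀ / 4) := by
          rw [mem_ball]
          have h4 : dist (y : X) p = dist (y : X) (q : X) := congrArg (dist (y : X)) hq.symm
          rw [h4]
          exact h1
        have h3 : G y = w := by rw [hGF _ y.2, ← hyw]
        exact ⟨y, ⟨h2, by rw [h3]; exact hw⟩, h3⟩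
    rw [key]
    exact isOpen_ball

end Vale.Agent.N242
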