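import Vale.Agent.P233.H719.RegChDefs
import Mathlib.Topology.MetricSpace.ProperSpace
import Mathlib.Order.Filter.Ultrafilter.Basic
import Mathlib.Analysis.SpecificLimits.Basic

/-!
# P242: a point with almost isometric charts is regular
-/

open Set Metric Filter Topology

noncomputable section

universe u

namespace Vale.Agent.N242

open Vale.Agent.P242 Vale.Agent.P242.H719

/-- A complete pointed space which is, on every ball, almost `L`-bi-Lipschitz to a proper normed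
space is `L`-bi-Lipschitz to it. -/
theorem bilip_of_approx {Y : Type u} [MetricSpace Y] [CompleteSpace Y] {E : Type}
    [NormedAddCommGroup E] [ProperSpace E] (q : Y) {L c : ℝ} (hL : 0 < L) (hc : 0 < c)
    (h : ∀ R ε : ℝ, 0 < R → 0 < ε → ∃ Φ : Y → E, Φ q = 0 ∧
      (∀ a ∈ ball q R, ∀ b ∈ ball q R, L⁻¹ * dist a b - ε ≤ dist (Φ a) (Φ b) ∧
        dist (Φ a) (Φ b) ≤ L * dist a b + ε) ∧
      ∀ z : E, ‖z‖ < c * R → ∃ a ∈ ball q R, dist (Φ a) z ≤ ε) :
    ∃ F : Y ≃ E, F q = 0 ∧ ∀ a b, L⁻¹ * dist a b ≤ dist (F a) (F b) ∧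
      dist (F a) (F b) ≤ L * dist a b := by
  have h' := fun m : ℕ => h ((m : ℝ) + 1) (1 / ((m : ℝ) + 1)) (by positivity) (by positivity)
  choose Φ h0 h1 h2 using h'
  let 𝒰 : Ultrafilter ℕ := hyperfilter ℕ
  have hU : (𝒰 : Filter ℕ) ≤ atTop := by
    rw [← Nat.cofinite_eq_atTop]; exact hyperfilter_le_cofinite
  have hε : Tendsto (fun m : ℕ => 1 / ((m : ℝ) + 1)) 𝒰 (𝓝 0) :=
    tendsto_one_div_add_atTop_nhds_zero_nat.mono_left hU
  have hR : ∀ c : ℝ, ∀ᶠ m : ℕ in 𝒰, c < (m : ℝ) + 1 := fun c =>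
    hU ((tendsto_atTop_add_const_right _ 1 tendsto_natCast_atTop_atTop).eventually_gt_atTop c)
  have hε1 : ∀ m : ℕ, 1 / ((m : ℝ) + 1) ≤ 1 := fun m => by
    rw [div_le_one (by positivity)]
    have : (0 : ℝ) ≤ m := Nat.cast_nonneg m
    linarith
  have hq : ∀ m : ℕ, q ∈ ball q ((m : ℝ) + 1) := fun m => mem_ball_self (by positivity)
  -- the limit map
  have hlim : ∀ a : Y, ∃ w : E, Tendsto (fun m => Φ m a) 𝒰 (𝓝 w) := by
    intro a
    have hc : IsCompact (closedBall (0 : E) (L * dist a q + 1)) := isCompact_closedBall _ _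
    have hm : (↑(𝒰.map fun m => Φ m a) : Filter E) ≤
        𝓟 (closedBall (0 : E) (L * dist a q + 1)) := by
      rw [le_principal_iff, Ultrafilter.coe_map, mem_map]
      filter_upwards [hR (dist a q)] with m hm
      have h3 := (h1 m a hm q (hq m)).2
      rw [h0 m] at h3
      have h4 := hε1 m
      change dist (Φ m a) 0 ≤ L * dist a q + 1
      linarith
    obtain ⟨w, -, hw⟩ := hc.ultrafilter_le_nhds _ hm
    exact ⟨w, hw⟩
  choose Ψ hΨ using hlim
  have hb : ∀ a b, L⁻¹ * dist a b ≤ dist (Ψ a) (Ψ b) ∧ dist (Ψ a) (Ψ b) ≤ L * dist a b := by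
    intro a b
    have t1 : Tendsto (fun m => dist (Φ m a) (Φ m b)) 𝒰 (𝓝 (dist (Ψ a) (Ψ b))) :=
      (hΨ a).dist (hΨ b)
    have t2 : Tendsto (fun m : ℕ => L⁻¹ * dist a b - 1 / ((m : ℝ) + 1)) 𝒰
        (𝓝 (L⁻¹ * dist a b - 0)) := tendsto_const_nhds.sub hε
    have t3 : Tendsto (fun m : ℕ => L * dist a b + 1 / ((m : ℝ) + 1)) 𝒰
        (𝓝 (L * dist a b + 0)) := tendsto_const_nhds.add hε
    rw [sub_zero] at t2
    rw [add_zero] at t3
    constructor
    · refine le_of_tendsto_of_tendsto t2 t1 ?_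
      filter_upwards [hR (dist a q), hR (dist b q)] with m ha hb
      exact (h1 m a ha b hb).1
    · refine le_of_tendsto_of_tendsto t1 t3 ?_
      filter_upwards [hR (dist a q), hR (dist b q)] with m ha hb
      exact (h1 m a ha b hb).2
  have hlip : LipschitzWith ⟨L, hL.le⟩ Ψ := LipschitzWith.of_dist_le_mul fun a b => (hb a b).2
  have hanti : AntilipschitzWith ⟨L, hL.le⟩ Ψ := AntilipschitzWith.of_le_mul_dist fun a b => by
    have := (hb a b).1
    rwa [inv_mul_le_iff₀ hL] at this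
  have hq0 : Ψ q = 0 := by
    have t1 : Tendsto (fun m => Φ m q) 𝒰 (𝓝 0) := by
      simp only [h0]; exact tendsto_const_nhds
    exact tendsto_nhds_unique (hΨ q) t1
  have hsurj : Function.Surjective Ψ := by
    intro z
    have h3 : ∀ m : ℕ, ∃ a : Y, ‖z‖ < c * ((m : ℝ) + 1) →
        a ∈ ball q ((m : ℝ) + 1) ∧ dist (Φ m a) z ≤ 1 / ((m : ℝ) + 1) := by
      intro m
      by_cases hz : ‖z‖ < c * ((m : ℝ) + 1)
      · obtain ⟨a, ha, ha'⟩ := h2 m z hz
        exact ⟨a, fun _ => ⟨ha, ha'⟩⟩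
      · exact ⟨q, fun h => absurd h hz⟩
    choose a ha using h3
    have hev : ∀ᶠ m : ℕ in 𝒰, a m ∈ ball q ((m : ℝ) + 1) ∧
        dist (Φ m (a m)) z ≤ 1 / ((m : ℝ) + 1) := by
      filter_upwards [hR (‖z‖ / c)] with m hm
      rw [div_lt_iff₀ hc] at hm
      exact ha m (by linarith)
    have hc : IsCompact (Ψ ⁻¹' closedBall (0 : E) (L * (L * (‖z‖ + 2)))) :=
      (hanti.isClosedEmbedding hlip.uniformContinuous).isCompact_preimage (isCompact_closedBall _ _)
    have hm : (↑(𝒰.map a) : Filter Y) ≤ 𝓟 (Ψ ⁻¹' closedBall (0 : E) (L * (L * (‖z‖ + 2)))) := by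
      rw [le_principal_iff, Ultrafilter.coe_map, mem_map]
      filter_upwards [hev] with m hm
      have h4 := (h1 m (a m) hm.1 q (hq m)).1
      rw [h0 m] at h4
      have h5 := dist_triangle (Φ m (a m)) z 0
      rw [dist_zero_right z] at h5
      have h6 := hε1 m
      have h7 : L⁻¹ * dist (a m) q ≤ ‖z‖ + 2 := by linarith [hm.2]
      rw [inv_mul_le_iff₀ hL] at h7
      change dist (Ψ (a m)) 0 ≤ L * (L * (‖z‖ + 2))
      rw [← hq0]
      exact (hb _ _).2.trans (mul_le_mul_of_nonneg_left h7 hL.le)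
    obtain ⟨b, -, hb'⟩ := hc.ultrafilter_le_nhds _ hm
    have hb'' : Tendsto a 𝒰 (𝓝 b) := hb'
    refine ⟨b, tendsto_nhds_unique (hΨ b) ?_⟩
    rw [tendsto_iff_dist_tendsto_zero]
    have t1 : Tendsto (fun m => L * dist b (a m) + 1 / ((m : ℝ) + 1) + 1 / ((m : ℝ) + 1)) 𝒰
        (𝓝 (L * dist b b + 0 + 0)) :=
      (((tendsto_const_nhds.dist hb'').const_mul L).add hε).add hε
    rw [dist_self, mul_zero, add_zero, add_zero] at t1
    refine squeeze_zero' (Eventually.of_forall fun _ => dist_nonneg) ?_ t1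
    filter_upwards [hev, hR (dist b q)] with m hm hbm
    have h4 := (h1 m b hbm (a m) hm.1).2
    have h5 := dist_triangle (Φ m b) (Φ m (a m)) z
    linarith [hm.2]
  exact ⟨Equiv.ofBijective Ψ ⟨hanti.injective, hsurj⟩, hq0, hb⟩

/-- a chart as a map defined on the whole space -/
theorem chart_fun {X : Type u} [MetricSpace X] {n : ℕ} {L : ℝ} {U : Set X}
    (h : BiLipChart n L U) : ∃ G : X → EuclideanSpace ℝ (Fin n), IsOpen (G '' U) ∧
      ∀ x ∈ U, ∀ z ∈ U, L⁻¹ * dist x z ≤ dist (G x) (G z) ∧ dist (G x) (G z) ≤ L * dist x z := by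
  obtain ⟨V, F, hV, hF⟩ := h
  classical
  let G : X → EuclideanSpace ℝ (Fin n) := fun x => if h : x ∈ U then F ⟨x, h⟩ else 0
  have hG : ∀ x (h : x ∈ U), G x = F ⟨x, h⟩ := fun x h => dif_pos h
  refine ⟨G, ?_, fun x hx z hz => ?_⟩
  · have e : G '' U = V := by
      refine Subset.antisymm ?_ fun v hv => ?_
      · rintro _ ⟨x, hx, rfl⟩
        rw [hG x hx]
        exact (F ⟨x, hx⟩).2
      · refine ⟨F.symm ⟨v, hv⟩, (F.symm ⟨v, hv⟩).2, ?_⟩
        rw [hG _ (F.symm ⟨v, hv⟩).2]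
        simp
    rw [e]
    exact hV
  · rw [hG x hx, hG z hz]
    exact hF ⟨x, hx⟩ ⟨z, hz⟩

/-- blow-up of a chart -/
theorem approx_of_chart {X Y : Type u} [MetricSpace X] [MetricSpace Y] {n : ℕ} {L : ℝ}
    (hL : 1 ≤ L) {p : X} {U : Set X} (hU : IsOpen U) (hpU : p ∈ U) (hC : BiLipChart n L U) {q : Y}
    (hT : IsTangent p q) (R ε : ℝ) (hR : 0 < R) (hε : 0 < ε) :
    ∃ Φ : Y → EuclideanSpace ℝ (Fin n), Φ q = 0 ∧
      (∀ a ∈ ball q R, ∀ b ∈ ball q R, L⁻¹ * dist a b - ε ≤ dist (Φ a) (Φ b) ∧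
        dist (Φ a) (Φ b) ≤ L * dist a b + ε) ∧
      ∀ z, ‖z‖ < (2 * L)⁻¹ * R → ∃ a ∈ ball q R, dist (Φ a) z ≤ ε := by
  obtain ⟨-, r, hr0, hr, hS⟩ := hT
  have hL0 : 0 < L := by linarith
  obtain ⟨e, he0, he1, he2, he3⟩ : ∃ e : ℝ, 0 < e ∧ e ≤ 1 ∧ L * e ≤ ε ∧ e ≤ R / 2 := by
    refine ⟨min 1 (min (ε / L) (R / 2)), by positivity, min_le_left _ _, ?_,
      (min_le_right _ _).trans (min_le_right _ _)⟩
    rw [← le_div_iff₀' hL0]
    exact (min_le_right _ _).trans (min_le_left _ _)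
  obtain ⟨G, hGo, hG⟩ := chart_fun hC
  obtain ⟨s, hs, hsU⟩ := Metric.isOpen_iff.1 hU p hpU
  obtain ⟨t, ht, htV⟩ := Metric.isOpen_iff.1 hGo (G p) ⟨p, hpU, rfl⟩
  have ev1 : ∀ᶠ j in atTop, r j < s / (R + 1) := hr.eventually (gt_mem_nhds (by positivity))
  have ev2 : ∀ᶠ j in atTop, r j < t / R := hr.eventually (gt_mem_nhds (by positivity))
  obtain ⟨j, ⟨f, hfq, hf1, hf2⟩, j1, j2⟩ := ((hS R e hR he0).and (ev1.and ev2)).exists
  have hρ := hr0 j
  set ρ := r j with hρd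
  rw [lt_div_iff₀ (by positivity)] at j1 j2
  have hqR : q ∈ ball q R := mem_ball_self hR
  have hfU : ∀ a ∈ ball q R, f a ∈ U := by
    intro a ha
    apply hsU
    have h1 := (abs_le.1 (hf1 a ha q hqR)).2
    rw [hfq] at h1
    have h2 : dist a q < R := ha
    have h3 : dist (f a) p / ρ < R + 1 := by linarith
    rw [div_lt_iff₀ hρ] at h3
    rw [mem_ball]
    linarith
  have hd : ∀ v w : EuclideanSpace ℝ (Fin n),
      dist (ρ⁻¹ • (v - G p)) (ρ⁻¹ • (w - G p)) = dist v w / ρ := by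
    intro v w
    rw [dist_smul₀, dist_sub_right, norm_inv, Real.norm_of_nonneg hρ.le, div_eq_inv_mul]
  have hi0 : 0 < L⁻¹ := inv_pos.2 hL0
  have hi1 : L⁻¹ ≤ L := (inv_le_one_of_one_le₀ hL).trans hL
  refine ⟨fun a => ρ⁻¹ • (G (f a) - G p), by simp [hfq], fun a ha b hb => ?_, fun z hz => ?_⟩
  · rw [hd]
    obtain ⟨g1, g2⟩ := hG _ (hfU a ha) _ (hfU b hb)
    have h1 := abs_le.1 (hf1 a ha b hb)
    set D := dist (f a) (f b) / ρ with hD
    have g3 : L⁻¹ * D ≤ dist (G (f a)) (G (f b)) / ρ := by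
      rw [hD, ← mul_div_assoc]
      exact div_le_div_of_nonneg_right g1 hρ.le
    have g4 : dist (G (f a)) (G (f b)) / ρ ≤ L * D := by
      rw [hD, ← mul_div_assoc]
      exact div_le_div_of_nonneg_right g2 hρ.le
    have g5 : L⁻¹ * (dist a b - e) ≤ L⁻¹ * D := mul_le_mul_of_nonneg_left (by linarith [h1.1]) hi0.le
    have g6 : L * D ≤ L * (dist a b + e) := mul_le_mul_of_nonneg_left (by linarith [h1.2]) hL0.le
    have g7 : L⁻¹ * e ≤ L * e := mul_le_mul_of_nonneg_right hi1 he0.le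
    constructor <;> linarith
  · have hz0 : 0 ≤ ‖z‖ := norm_nonneg z
    rw [lt_inv_mul_iff₀ (by positivity)] at hz
    have hzR : ‖z‖ < R := by nlinarith
    have hw : G p + ρ • z ∈ ball (G p) t := by
      rw [mem_ball, dist_eq_norm, add_sub_cancel_left, norm_smul, Real.norm_of_nonneg hρ.le]
      nlinarith
    obtain ⟨x, hxU, hx⟩ := htV hw
    have h1 := (hG x hxU p hpU).1
    rw [hx, dist_eq_norm, add_sub_cancel_left, norm_smul, Real.norm_of_nonneg hρ.le,
      inv_mul_le_iff₀ hL0] at h1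
    have hxb : x ∈ ball p (ρ * (R - e)) := by
      rw [mem_ball]
      have h3 : ρ * (L * ‖z‖) < ρ * (R - e) := mul_lt_mul_of_pos_left (by linarith) hρ
      linarith
    obtain ⟨a, ha, hxa⟩ := hf2 x hxb
    refine ⟨a, ha, ?_⟩
    have e1 : z = ρ⁻¹ • (G x - G p) := by
      rw [hx, add_sub_cancel_left, smul_smul, inv_mul_cancel₀ hρ.ne', one_smul]
    have h2 := (hG _ (hfU a ha) x hxU).2
    rw [dist_comm (f a) x] at h2
    have h3 : L * dist x (f a) ≤ L * (ρ * e) := mul_le_mul_of_nonneg_left hxa hL0.le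
    have h4 : ρ * (L * e) ≤ ρ * ε := mul_le_mul_of_nonneg_left he2 hρ.le
    rw [e1, hd, div_le_iff₀ hρ]
    linarith

/-- **The tangents at the points of a chart are bi-Lipschitz to `ℝⁿ`.** -/
theorem tangent_bilip {X Y : Type u} [MetricSpace X] [MetricSpace Y] {n : ℕ} {L : ℝ}
    (hL : 1 ≤ L) {p : X} {U : Set X} (hU : IsOpen U) (hpU : p ∈ U) (hC : BiLipChart n L U) {q : Y}
    (hT : IsTangent p q) : ∃ F : Y ≃ EuclideanSpace ℝ (Fin n), F q = 0 ∧
      ∀ a b, L⁻¹ * dist a b ≤ dist (F a) (F b) ∧ dist (F a) (F b) ≤ L * dist a b := by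
  have := hT.1
  exact bilip_of_approx q (by linarith) (c := (2 * L)⁻¹) (by positivity)
    (approx_of_chart hL hU hpU hC hT)

/-- **Almost isometric charts at `p` make `p` regular.** -/
theorem regular_of_charts {X : Type u} [MetricSpace X] {n : ℕ} {p : X}
    (h : ∀ L : ℝ, 1 < L → ∃ U : Set X, IsOpen U ∧ p ∈ U ∧ BiLipChart n L U) : IsRegular n p := by
  intro Y _ q hT
  have := hT.1
  obtain ⟨F, hF0, hF⟩ := bilip_of_approx (E := EuclideanSpace ℝ (Fin n)) q (L := 1) (c := 1 / 4)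
    one_pos (by norm_num) fun R ε hR hε => by
      obtain ⟨l, hl0, hl1, hl2⟩ : ∃ l : ℝ, 0 < l ∧ l ≤ 1 ∧ l * (2 * R) ≤ ε / 2 := by
        refine ⟨min 1 (ε / 2 / (2 * R)), by positivity, min_le_left _ _, ?_⟩
        rw [← le_div_iff₀ (by positivity)]
        exact min_le_right _ _
      obtain ⟨U, hU, hpU, hC⟩ := h (1 + l) (by linarith)
      obtain ⟨Φ, h0, h1, h2⟩ := approx_of_chart (by linarith) hU hpU hC hT R (ε / 2) hR
        (by positivity)
      refine ⟨Φ, h0, fun a ha b hb => ?_, fun z hz => ?_⟩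
      · obtain ⟨g1, g2⟩ := h1 a ha b hb
        have hinv : 1 - l ≤ (1 + l)⁻¹ := by
          rw [inv_eq_one_div, le_div_iff₀ (by linarith)]
          nlinarith
        have g3 : dist a b < 2 * R := by
          have h3 : dist a q < R := ha
          have h4 : dist b q < R := hb
          linarith [dist_triangle_right a b q]
        have g4 := mul_le_mul_of_nonneg_right hinv (dist_nonneg (x := a) (y := b))
        have g5 : l * dist a b ≤ l * (2 * R) := mul_le_mul_of_nonneg_left g3.le hl0.le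
        rw [inv_one]
        constructor <;> linarith
      · obtain ⟨a, ha, ha'⟩ := h2 z (by
          refine hz.trans_le (mul_le_mul_of_nonneg_right ?_ hR.le)
          rw [inv_eq_one_div]
          exact one_div_le_one_div_of_le (by linarith) (by linarith))
        exact ⟨a, ha, by linarith⟩
  refine ⟨⟨F, Isometry.of_dist_eq fun a b => ?_⟩, hF0⟩
  have := hF a b
  rw [inv_one, one_mul] at this
  exact le_antisymm this.2 this.1

end Vale.Agent.N242
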