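import Vale.Agent.P242X.P242.H71.Final

/-!
# P242: Part A of the construction of the charts at a point with almost Euclidean small balls

The proofs are those of the blocks `Maps`, `Low`, `Drop` and of their assembly; regularity of the
point is used only through `H448.CloseSmall`.
-/

set_option linter.all false

open MeasureTheory Filter Topology Set Metric
open scoped ENNReal NNReal InnerProductSpace MeasureTheory

universe u

namespace Vale.Agent.P242.H446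

open Vale.Agent.P233 Vale.Agent.P233.RA Vale.Agent.P242.H520 Vale.Agent.P242.H990
open Vale.Agent.P242.H71 (E Env Cfg HypL PP gm gam uc Gm)

variable {M : Type u} [MetricSpace M] [CompleteSpace M] [SecondCountableTopology M]
  [MeasurableSpace M] [BorelSpace M] {m : Measure M} {n : ℕ} {K : ℝ} {θ₀ : M → ℝ}
  {p : ℝ → M → M → ℝ}

/-- Stage 1 from almost Euclidean small balls -/
theorem stage1N {o : M} {A : ℝ} (h : Env m n K o A p) (hcl : H448.CloseSmall n o) {S R σ ρ₁ : ℝ}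
    (hS : 0 ≤ S) (hR : 1 ≤ R) (hσ : 0 < σ) (hσ1 : σ ≤ 1) (hρ₁ : 0 < ρ₁) :
    ∃ ρ, ρ ≤ ρ₁ ∧ ∃ (u : Fin n → M →ₘ[m] ℝ) (uu : M → E n), Pre m n K o p S R σ ρ u uu := by
  have hp := h.ker
  have hcd := H448.hyp_of h.hyp
  obtain ⟨θ₀, hN⟩ := H992.nsp hcd
  have hBE := H992.be hcd
  haveI := hN.full
  haveI := sigmaFinite_of_fin hN.fin
  have hD := hN.isDir
  have hC := hN.isGamma
  have hn : (0 : ℝ) < n := by exact_mod_cast hN.n_pos
  obtain ⟨Ct, hCt, hT⟩ := exists_tail hcd hp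
  obtain ⟨Cm, hCm, hM⟩ := exists_mom hcd hp
  obtain ⟨θ, η₁, Q, L, τ, N⟩ := exists_num n (Ct := Ct) (R := R) hCm hS hσ hσ1
  obtain ⟨r₀, hr₀, hr₁, hr⟩ := exists_numR K L S R hσ hρ₁
  have hQ := N.Q_ge
  obtain ⟨ρ, φ, hρ, hρr, g1, g2, g3, g4⟩ := H757.geo_points hcl N.η_pos N.η_le
    (by linarith : 1 ≤ Q) N.L_eq.le hr₀
  have N' := hr ρ hρ hρr
  have G : GeoD n o Q L η₁ ρ φ := ⟨g1, g2, g3, g4⟩
  have hθ := N.θ_pos
  have hθ1 := N.θ_le
  have hη := N.η_pos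
  have hη1 := N.η_le
  have hL0 : 0 < L := by
    have hQ1 : 0 < Q + 1 := by linarith
    have : 0 < η₁ * L := by rw [← N.L_eq]; positivity
    exact (mul_pos_iff_of_pos_left hη).1 this
  have hL1 : 4 * (Q + 1) ^ 2 ≤ L := by rw [N.L_eq]; nlinarith
  have hrL : 0 < L * ρ := by positivity
  have ht : 0 < θ * ρ ^ 2 := by positivity
  have hρ2 : 0 < ρ ^ 2 := by positivity
  have htρ : θ * ρ ^ 2 ≤ ρ ^ 2 := by nlinarith
  have hρ1 : ρ ^ 2 ≤ 1 := by
    have := N'.k2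
    nlinarith
  -- the far points
  choose q hq0 hq using fun i : Fin n => G.far (EuclideanSpace.single i (1 : ℝ)) (by simp)
  have hq' : ∀ i, FarP o Q L η₁ ρ φ (EuclideanSpace.single i 1) (q i) := hq
  refine ⟨ρ, hρr.le.trans hr₁, fun i => (sob m).P (θ * ρ ^ 2) (Fr m (L * ρ) (q i)),
    fun z => WithLp.toLp 2 fun i => pt m p (θ * ρ ^ 2) (fr (L * ρ) (q i)) z, ?_⟩
  have hF2 : ∀ i, MemLp (Fr m (L * ρ) (q i)) 2 m := fun i => Fr_mem2 hN hrL (q i)
  have hf2 : ∀ i, MemLp (fr (L * ρ) (q i)) 2 m := fun i =>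
    (memLp_congr_ae (Fr_ae (m := m) hrL (q i))).1 (hF2 i)
  have hTI : ∀ i, (sob m).P (θ * ρ ^ 2) (Fr m (L * ρ) (q i)) ∈ (sob m).TestI := fun i =>
    H715.P_testI_pos hC hn hBE ht (hF2 i) (Fr_A hN hrL (q i)).2
  have hrep : ∀ i, ∀ᵐ x ∂m, (sob m).P (θ * ρ ^ 2) (Fr m (L * ρ) (q i)) x
      = pt m p (θ * ρ ^ 2) (fr (L * ρ) (q i)) x := fun i => by
    filter_upwards [hp.rep _ ht _ (hF2 i)] with x hx
    rw [hx]
    exact pt_congr hp (Fr_ae (m := m) hrL (q i)) _ _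
  have hexp : Real.exp (2 * |K| * (θ * ρ ^ 2)) ≤ 9 / 8 := by
    refine (Real.exp_le_exp.2 ?_).trans (N'.k5.trans (by linarith))
    have : 0 ≤ 2 * |K| * ρ ^ 2 := by positivity
    nlinarith
  have hg4 : ∀ i, ∀ᵐ z ∂m, (sob m).Γ ((sob m).P (θ * ρ ^ 2) (Fr m (L * ρ) (q i)))
      ((sob m).P (θ * ρ ^ 2) (Fr m (L * ρ) (q i))) z ≤ 4 := fun i =>
    grad_four hN hBE hp hrL ht hexp (q i)
  have hup : ∀ c : E n, ‖c‖ = 1 → ∀ᵐ z ∂m, z ∈ ball o (R * ρ) →
      (sob m).Γ (∑ i, c i • (sob m).P (θ * ρ ^ 2) (Fr m (L * ρ) (q i)))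
        (∑ i, c i • (sob m).P (θ * ρ ^ 2) (Fr m (L * ρ) (q i))) z ≤ 1 + σ := by
    intro c hc
    filter_upwards [grad_est hN hBE hp hT hCt hS (by linarith) hσ hσ1 N N' G hq' hc] with z hz hzb
    refine hz (ball_subset_ball ?_ hzb)
    nlinarith
  have hsgl : ∀ (i : Fin n) (U : Fin n → M →ₘ[m] ℝ),
      ∑ j, (EuclideanSpace.single i (1 : ℝ) : E n) j • U j = U i := by
    intro i U
    rw [Finset.sum_eq_single i]
    · simp
    · intro j _ hj
      simp [hj]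
    · intro hi
      exact absurd (Finset.mem_univ i) hi
  have hW : ∀ i, (sob m).P (θ * ρ ^ 2) (Fr m (L * ρ) (q i)) ∈ (sob m).W := fun i =>
    hD.P_mem ht (hF2 i)
  have hiso := H757.iso_dens (uu := fun z => WithLp.toLp 2 fun i => pt m p (θ * ρ ^ 2)
    (fr (L * ρ) (q i)) z) (φ := φ) (o := o) (L := L) (η₁ := η₁) (ρ := ρ) (R := R) (Q₁ := Q)
    (a := 2 * η₁ + 2 * Cm * √θ) (η := σ) hρ hη.le (by positivity) (by linarith) G.zero G.iso G.dens
    hQ (by nlinarith) (WithLp.toLp 2 fun _ => L * ρ) ?_ N.e1 hσ1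
  · exact
    { ρ_pos := hρ
      Rρ := N'.k3
      Sρ := by have := N'.k2; nlinarith
      Kρ := N'.k4
      test := hTI
      lip := by
        intro i
        obtain ⟨v, hv1, hv2⟩ := exists_lip_rep hN.s2l (hW i) (G := 2) two_pos (by
          filter_upwards [hg4 i] with z hz
          exact hz.trans (by norm_num))
        have hvL : LipschitzWith 2 v := by
          refine LipschitzWith.of_dist_le_mul fun x x' => ?_
          rw [Real.dist_eq]
          exact hv1 x x'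
        have hc1 : Continuous (pt m p (θ * ρ ^ 2) (fr (L * ρ) (q i))) := hp.contf _ ht _ (hf2 i)
        have hae : pt m p (θ * ρ ^ 2) (fr (L * ρ) (q i)) =ᵐ[m] v := by
          filter_upwards [hrep i, hv2] with x h1 h2
          rw [← h1, h2]
        have heq : pt m p (θ * ρ ^ 2) (fr (L * ρ) (q i)) = v :=
          (Continuous.ae_eq_iff_eq m hc1 hvL.continuous).1 hae
        refine ⟨2, ?_⟩
        show LipschitzWith 2 (pt m p (θ * ρ ^ 2) (fr (L * ρ) (q i)))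
        rw [heq]
        exact hvL
      rep := hrep
      grad := hg4
      lap1 := fun x hx s hs hs1 i =>
        lap1_est hN hBE hp hT hCt hS (by linarith) hσ hσ1 N N' G (by simp) (hq' i) hx hs hs1
      lap2 := fun x hx s hs hs1 i =>
        lap2_est hN hBE hp hT hCt hS (by linarith) hσ hσ1 N N' G (by simp) (hq' i) hx hs hs1
      up1 := by
        intro i
        have := hup (EuclideanSpace.single i 1) (by simp)
        rw [hsgl i] at this
        exact this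
      up2 := by
        intro i j hij
        have hpm : ∀ a : ℝ, a ^ 2 = 1 → ∀ᵐ z ∂m, z ∈ ball o (R * ρ) →
            (sob m).Γ ((sob m).P (θ * ρ ^ 2) (Fr m (L * ρ) (q i)) +
              a • (sob m).P (θ * ρ ^ 2) (Fr m (L * ρ) (q j)))
              ((sob m).P (θ * ρ ^ 2) (Fr m (L * ρ) (q i)) +
              a • (sob m).P (θ * ρ ^ 2) (Fr m (L * ρ) (q j))) z ≤ 2 * (1 + σ) := by
          intro a ha
          have hs2 : (√2)⁻¹ ^ 2 = (1 / 2 : ℝ) := by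
            rw [inv_pow, Real.sq_sqrt two_pos.le]; norm_num
          have hc : ‖(√2)⁻¹ • ((EuclideanSpace.single i (1 : ℝ) : E n) +
              a • EuclideanSpace.single j (1 : ℝ))‖ = 1 := by
            have h1 : ‖(EuclideanSpace.single i (1 : ℝ) : E n) +
                a • EuclideanSpace.single j (1 : ℝ)‖ ^ 2 = 2 := by
              have h0 : ⟪(EuclideanSpace.single i (1 : ℝ) : E n),
                  EuclideanSpace.single j (1 : ℝ)⟫_ℝ = 0 := by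
                rw [EuclideanSpace.inner_single_left]
                simp [hij]
              rw [norm_add_sq_real, inner_smul_right, h0, norm_smul]
              simp [ha]
              norm_num
            rw [norm_smul, ← Real.sqrt_sq (norm_nonneg ((EuclideanSpace.single i (1 : ℝ) : E n) +
              a • EuclideanSpace.single j (1 : ℝ))), h1]
            rw [Real.norm_of_nonneg (by positivity)]
            exact inv_mul_cancel₀ (by positivity)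
          have h2 := hup _ hc
          have h3 : ∑ k, ((√2)⁻¹ • ((EuclideanSpace.single i (1 : ℝ) : E n) +
              a • EuclideanSpace.single j (1 : ℝ))) k •
                (sob m).P (θ * ρ ^ 2) (Fr m (L * ρ) (q k)) =
              (√2)⁻¹ • ((sob m).P (θ * ρ ^ 2) (Fr m (L * ρ) (q i)) +
              a • (sob m).P (θ * ρ ^ 2) (Fr m (L * ρ) (q j))) := by
            have e1 := hsgl i fun k => (sob m).P (θ * ρ ^ 2) (Fr m (L * ρ) (q k))
            have e2 := hsgl j fun k => (sob m).P (θ * ρ ^ 2) (Fr m (L * ρ) (q k))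
            rw [← e1, ← e2, Finset.smul_sum, ← Finset.sum_add_distrib, Finset.smul_sum]
            refine Finset.sum_congr rfl fun k _ => ?_
            simp only [PiLp.smul_apply, PiLp.add_apply, smul_eq_mul]
            rw [smul_smul, ← add_smul, smul_smul]
          rw [h3] at h2
          have hwij : (sob m).P (θ * ρ ^ 2) (Fr m (L * ρ) (q i)) +
              a • (sob m).P (θ * ρ ^ 2) (Fr m (L * ρ) (q j)) ∈ (sob m).W :=
            hD.add_mem _ (hW i) _ (hD.smul_mem _ _ (hW j))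
          rw [hD.smul_left _ _ hwij _ (hD.smul_mem _ _ hwij), hD.Γ_smul_right _ hwij hwij,
            smul_smul, ← sq, hs2] at h2
          filter_upwards [h2, smul_ae ((sob m).Γ ((sob m).P (θ * ρ ^ 2) (Fr m (L * ρ) (q i)) +
              a • (sob m).P (θ * ρ ^ 2) (Fr m (L * ρ) (q j)))
              ((sob m).P (θ * ρ ^ 2) (Fr m (L * ρ) (q i)) +
              a • (sob m).P (θ * ρ ^ 2) (Fr m (L * ρ) (q j)))) (1 / 2 : ℝ)] with z z1 z2 hz
          have := z1 hz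
          rw [z2] at this
          linarith
        have p1 := hpm 1 (by norm_num)
        have p2 := hpm (-1) (by norm_num)
        rw [one_smul] at p1
        rw [neg_one_smul, ← sub_eq_add_neg] at p2
        filter_upwards [p1, p2] with z z1 z2 hz
        exact ⟨z1 hz, z2 hz⟩
      iso := hiso.1
      dens := hiso.2 }
  · intro z hz i
    have e1 := (fr_lin hρ (by linarith) hη hη1 N.L_eq G (by simp) (hq' i) hz).1
    have e2 := pt_sub_le hp hM hrL ht (htρ.trans hρ1) (q i) z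
    have e3 : √(θ * ρ ^ 2) = √θ * ρ := by
      rw [Real.sqrt_mul hθ.le, Real.sqrt_sq hρ.le]
    rw [e3] at e2
    have e4 : ⟪(EuclideanSpace.single i 1 : E n), φ z⟫_ℝ = φ z i := by
      simp [EuclideanSpace.inner_single_left]
    rw [e4] at e1
    show |pt m p (θ * ρ ^ 2) (fr (L * ρ) (q i)) z - (φ z i + L * ρ)| ≤ _
    rw [abs_le] at e1 e2 ⊢
    constructor <;> nlinarith [e1.1, e1.2, e2.1, e2.2]

/-- the almost harmonic maps near `o` at arbitrarily small scales -/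
def MapsAt (m : Measure M) (n : ℕ) (K : ℝ) (o : M) (p : ℝ → M → M → ℝ) : Prop :=
  ∀ R Q η ρ₁ : ℝ, 1 ≤ R → 1 ≤ Q → 0 < η → 0 < ρ₁ → ∃ ρ, ρ ≤ ρ₁ ∧
    ∃ (u : Fin n → M →ₘ[m] ℝ) (uu : M → E n), Cfg m n K o p R Q η ρ u uu

theorem mapsN {o : M} {A : ℝ} (h : Env m n K o A p) (hcl : H448.CloseSmall n o) :
    MapsAt m n K o p := by
  intro R Q η ρ₁ hR hQ hη hρ₁
  obtain ⟨S, R₁, σ, hS, hR₁, hσ, hσ1, H⟩ := H757.stage2 h hR hQ hη
  obtain ⟨ρ, hρ, u, uu, hPre⟩ :=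
    stage1N h hcl (by linarith : 0 ≤ S) (by linarith : 1 ≤ R₁) hσ hσ1 hρ₁
  exact ⟨ρ, hρ, u, uu, H ρ u uu hPre⟩

end Vale.Agent.P242.H446

namespace Vale.Agent.P242.H607

open Vale.Agent.P233 Vale.Agent.P233.RA Vale.Agent.P242.H990 Vale.Agent.P242.H520
open Vale.Agent.P242.H71

theorem lowN {M : Type u} [MetricSpace M] [CompleteSpace M] [SecondCountableTopology M]
    [MeasurableSpace M] [BorelSpace M] {m : Measure M} {n : ℕ} {K : ℝ} {o : M} {A : ℝ}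
    {p : ℝ → M → M → ℝ} (e : Env m n K o A p) (h : H446.MapsAt m n K o p) :
    ∀ δ : ℝ, 0 < δ → ∀ r₀ : ℝ, 0 < r₀ → ∃ r : ℝ, 0 < r ∧ r < r₀ ∧
      (1 - δ) * (2 * r) ^ n ≤ m.real (Metric.closedBall o r) := by
  intro δ₀ hδ₀ r₀ hr₀
  have hn := e.hyp.two_le
  have hn1 : 1 ≤ n := by omega
  have hS := H751.env_std e
  have hC := H751.env_gamma e
  have hG := H751.env_geoN e
  haveI := hG.geo.proper
  haveI := e.hyp.full
  have hB : (sob m).BEi (-|K|) := bei_mono hC (H751.env_bei e) (neg_abs_le K)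
  obtain ⟨c, hc, C, hvol⟩ := hG.geo.vol o 2
  set Cv := max C 0 with hCv
  have hCv0 : 0 ≤ Cv := le_max_right _ _
  obtain ⟨δ, hδ, hmain⟩ := vol_ratio_low.{u} n hn1 hc hCv0 (lt_min hδ₀ one_pos) (min_le_right δ₀ 1)
  have hA := e.kb.pos
  obtain ⟨η, hη, hη1, hη2, hη3, hη4⟩ := choose_eta n (D := (n + n ^ 2) * (A * Real.exp A + Cv)) hδ
    (by positivity)
  obtain ⟨ρ, hρ1, u, uu, hu⟩ := h 8 1 η (min r₀ 1) (by norm_num) le_rfl hη
    (lt_min hr₀ one_pos)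
  have hρ := hu.ρ_pos
  have hρr : ρ ≤ r₀ := hρ1.trans (min_le_left _ _)
  have hρ1' : ρ ≤ 1 := hρ1.trans (min_le_right _ _)
  have hvl : ∀ y ∈ ball o ρ, ∀ r, 0 < r → r ≤ ρ → c * r ^ n ≤ m.real (ball y r) := by
    intro y hy r hr hrρ
    have hy2 : y ∈ ball o 2 := ball_subset_ball (by linarith) hy
    have h1 := (hvol y hy2 r hr (by linarith)).1
    exact (ENNReal.ofReal_le_iff_le_toReal (hG.fin y r).ne).1 h1
  have hvu : ∀ r, 0 < r → r ≤ ρ → m.real (ball o r) ≤ Cv * r ^ n := by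
    intro r hr hrρ
    have h1 := (hvol o (mem_ball_self (by norm_num)) r hr (by linarith)).2
    have h2 : m (ball o r) ≤ ENNReal.ofReal (Cv * r ^ n) := by
      refine h1.trans (ENNReal.ofReal_le_ofReal ?_)
      have : C ≤ Cv := le_max_left _ _
      gcongr
    exact ENNReal.toReal_le_of_le_ofReal (by positivity) h2
  have hcl : ∀ i, cl m (fun x => uu x i) = u i := by
    intro i
    have hci : Continuous fun x => uu x i :=
      (EuclideanSpace.proj (𝕜 := ℝ) i).continuous.comp hu.cont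
    rw [eq_iff_ae]
    filter_upwards [H866.cl_ae (m := m) hci, hu.rep i] with x h1 h2
    rw [h1, h2]
  have hfin := (hG.fin o ρ).ne
  have hres := hmain hS e.hyp.haus o ρ hρ (hu.Kρ.trans hη2) (isCompact_closedBall o (ρ / 4))
    (ball_conn hG.geo.geod o (ρ / 4)) (sphere_pt hn1 hG.geo.geod hu hη.le hη1) hvl hvu
    (fun i x => uu x i) (fun i => (EuclideanSpace.proj (𝕜 := ℝ) i).continuous.comp hu.cont)
    (fun i => by rw [hcl i]; exact hu.test i)
    (fun y hy z hz => by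
      have h1 := lip_top hS hB e.ker e.kb hu le_rfl hη.le hδ.le hη3 hy hz
      rw [EuclideanSpace.norm_sq_eq] at h1
      refine le_trans (le_of_eq ?_) h1
      refine Finset.sum_congr rfl fun i _ => ?_
      rw [Real.norm_eq_abs, sq_abs]
      rfl)
    (by
      simp_rw [hcl]
      refine (er_le hC e.ker e.kb hu (by norm_num) le_rfl hη hfin hCv0 (hvu ρ hρ le_rfl)).trans ?_
      gcongr)
  refine ⟨ρ / 64, by positivity, by linarith, ?_⟩
  refine le_trans ?_ hres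
  have : min δ₀ 1 ≤ δ₀ := min_le_left _ _
  gcongr

end Vale.Agent.P242.H607

namespace Vale.Agent.P242.H744

open Vale.Agent.P233 Vale.Agent.P233.RA Vale.Agent.P242.H990

theorem dropN {M : Type u} [MetricSpace M] [CompleteSpace M] [SecondCountableTopology M]
    [MeasurableSpace M] [BorelSpace M] {m : Measure M} {n : ℕ} {K : ℝ} {o : M} {A : ℝ}
    {p : ℝ → M → M → ℝ} (e : H71.Env m n K o A p)
    (hlow' : ∀ δ : ℝ, 0 < δ → ∀ r₀ : ℝ, 0 < r₀ → ∃ r : ℝ, 0 < r ∧ r < r₀ ∧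
      (1 - δ) * (2 * r) ^ n ≤ m.real (Metric.closedBall o r)) :
    ∀ R Q δ : ℝ, 1 ≤ R → 1 ≤ Q → 0 < δ → ∃ ρ₁, 0 < ρ₁ ∧ ∀ ρ, 0 < ρ → ρ ≤ ρ₁ →
      H71.DropS m n K o p R Q δ ρ := by
  intro R Q δ hR hQ hδ
  obtain ⟨C, hC, hdrop⟩ := drop_env e
  have hA := e.kb.pos
  obtain rfl := e.hyp.haus
  obtain ⟨θ, t⟩ := nsp_of e.hyp
  have hn := e.hyp.two_le
  have hH := P242X.hyp_of_bmi hn e.hyp.full t.fin (P242X.bmi hn t.fin (hyp_of e.hyp).rcd.cd)
  -- parameters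
  have h2n : (0 : ℝ) < 2 ^ n := by positivity
  set δ' : ℝ := min 1 (δ / (8 * C * 2 ^ n)) with hδ'
  have hδ'0 : 0 < δ' := lt_min one_pos (by positivity)
  have hδ'1 : δ' ≤ 1 := min_le_left _ _
  have hδ'2 : δ' ≤ δ / (8 * C * 2 ^ n) := min_le_right _ _
  obtain ⟨R₀, hR₀, hratio⟩ := H757.ratio_near hH (by omega) o hlow' hδ'0
  set δ₁ : ℝ := min (1 / 2) (min (R₀ ^ 2 / 2) (δ / (8 * C * 2 ^ n))) with hδ₁
  have hδ₁0 : 0 < δ₁ := lt_min (by norm_num) (lt_min (by positivity) (by positivity))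
  have hδ₁1 : δ₁ ≤ 1 / 2 := min_le_left _ _
  have hδ₁2 : δ₁ ≤ R₀ ^ 2 / 2 := (min_le_right _ _).trans (min_le_left _ _)
  have hδ₁3 : δ₁ ≤ δ / (8 * C * 2 ^ n) := (min_le_right _ _).trans (min_le_right _ _)
  have hρR : √(2 * δ₁) ≤ R₀ := by
    rw [← Real.sqrt_sq hR₀.le]
    exact Real.sqrt_le_sqrt (by linarith)
  set E : ℝ := 1 + δ₁⁻¹ ^ (n + 1) with hE
  have hE0 : 0 < E := by positivity
  set S : ℝ := min δ₁ (min A⁻¹ (δ / (4 * C * E))) with hS
  have hS0 : 0 < S := lt_min hδ₁0 (lt_min (by positivity) (by positivity))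
  refine ⟨min (min 1 R₀ / (2 * R)) (√(S / Q)), lt_min (by positivity) (Real.sqrt_pos.2 (by positivity)), ?_⟩
  intro ρ hρ hρ1 x hx a ha haQ
  have hRρ : R * ρ ≤ min 1 R₀ / 2 := by
    have h1 := hρ1.trans (min_le_left _ _)
    rw [le_div_iff₀ (by positivity)] at h1
    linarith
  have hRρ1 : R * ρ < 1 := by
    have := min_le_left 1 R₀
    linarith
  have hRρ2 : R * ρ < R₀ := by
    have := min_le_right 1 R₀
    linarith
  have hx1 : x ∈ Metric.ball o 1 := Metric.ball_subset_ball hRρ1.le hx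
  have hx2 : x ∈ Metric.ball o R₀ := Metric.ball_subset_ball hRρ2.le hx
  have hQρ : Q * ρ ^ 2 ≤ S := by
    have h1 := hρ1.trans (min_le_right _ _)
    have h2 : ρ ^ 2 ≤ S / Q := by
      have := pow_le_pow_left₀ hρ.le h1 2
      rwa [Real.sq_sqrt (by positivity)] at this
    rw [le_div_iff₀ (by positivity)] at h2
    linarith
  set σ : ℝ := √(Q * ρ ^ 2) with hσ
  have hσ0 : 0 < σ := Real.sqrt_pos.2 (by positivity)
  have hσ2 : σ ^ 2 = Q * ρ ^ 2 := Real.sq_sqrt (by positivity)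
  obtain ⟨-, hball⟩ := hratio x hx2
  have hΘ : ∀ t, 0 < t → t ≤ √(2 * δ₁) →
      ((μH[(n : ℝ)] : Measure M) (Metric.ball x t)).toReal ≤ (1 + δ') * 2 ^ n * t ^ n := by
    intro t ht htρ
    have := (hball t ht (htρ.trans hρR)).2
    rw [mul_pow, ← mul_assoc] at this
    exact this
  have hρ0 : 0 < √(2 * δ₁) := Real.sqrt_pos.2 (by linarith)
  have hWlow : (1 - δ') * 2 ^ n ≤
      ((μH[(n : ℝ)] : Measure M) (Metric.ball x √(2 * δ₁))).toReal / √(2 * δ₁) ^ n := by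
    rw [le_div_iff₀ (by positivity)]
    have := (hball _ hρ0 hρR).1
    rw [mul_pow, ← mul_assoc] at this
    exact this
  have hS1 : S ≤ δ₁ := min_le_left _ _
  have hS2 : S ≤ A⁻¹ := (min_le_right _ _).trans (min_le_left _ _)
  have hS3 : S ≤ δ / (4 * C * E) := (min_le_right _ _).trans (min_le_right _ _)
  have hmain := hdrop x hx1 δ₁ σ ((1 + δ') * 2 ^ n) hδ₁0 hδ₁1 hσ0 (by rw [hσ2]; linarith)
    (by rw [hσ2]; linarith) hΘ a ha (by rw [hσ2]; exact haQ)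
  rw [hσ2] at hmain
  refine hmain.trans ?_
  have b1 : (1 + δ') * 2 ^ n - ((μH[(n : ℝ)] : Measure M) (Metric.ball x √(2 * δ₁))).toReal
      / √(2 * δ₁) ^ n ≤ 2 * δ' * 2 ^ n := by linarith
  have b2 : C * (2 * δ' * 2 ^ n) ≤ δ / 4 := by
    have := mul_le_mul_of_nonneg_left hδ'2 (by positivity : 0 ≤ C * 2 * 2 ^ n)
    have e1 : C * 2 * 2 ^ n * (δ / (8 * C * 2 ^ n)) = δ / 4 := by
      field_simp
      norm_num
    linarith
  have b3 : C * ((1 + δ') * 2 ^ n * δ₁) ≤ δ / 4 := by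
    have h1 : (1 + δ') * 2 ^ n * δ₁ ≤ 2 * 2 ^ n * (δ / (8 * C * 2 ^ n)) := by
      gcongr
      linarith
    have := mul_le_mul_of_nonneg_left h1 hC.le
    have e1 : C * (2 * 2 ^ n * (δ / (8 * C * 2 ^ n))) = δ / 4 := by
      field_simp
      norm_num
    linarith
  have b4 : C * (Q * ρ ^ 2 * E) ≤ δ / 4 := by
    have h1 : Q * ρ ^ 2 * E ≤ δ / (4 * C * E) * E :=
      mul_le_mul_of_nonneg_right (hQρ.trans hS3) hE0.le
    have := mul_le_mul_of_nonneg_left h1 hC.le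
    have e1 : C * (δ / (4 * C * E) * E) = δ / 4 := by
      field_simp
    linarith
  have b5 := mul_le_mul_of_nonneg_left b1 hC.le
  have b6 : C * ((1 + δ') * 2 ^ n - ((μH[(n : ℝ)] : Measure M) (Metric.ball x √(2 * δ₁))).toReal
      / √(2 * δ₁) ^ n + (1 + δ') * 2 ^ n * δ₁ + Q * ρ ^ 2 * E)
      = C * ((1 + δ') * 2 ^ n - ((μH[(n : ℝ)] : Measure M) (Metric.ball x √(2 * δ₁))).toReal
      / √(2 * δ₁) ^ n) + C * ((1 + δ') * 2 ^ n * δ₁) + C * (Q * ρ ^ 2 * E) := by ring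
  rw [b6]
  linarith

end Vale.Agent.P242.H744

namespace Vale.Agent.P242.H71

open Vale.Agent.P233 Vale.Agent.P233.RA Vale.Agent.P242.H990 H155

/-- **Part A from almost Euclidean small balls.** -/
theorem partA_ofN (bF : Blk_F.{u}) (b6 : Blk_H6.{u})
    (bT : Blk_T.{u}) (bN : Blk_Near.{u}) (b5 : Blk_H5.{u}) (bH : Blk_H234.{u})
    (X : Type u) [MetricSpace X] [CompleteSpace X] [SecondCountableTopology X]
    [MeasurableSpace X] [BorelSpace X] (n : ℕ) (K : ℝ) (hyp : HypL (μH[(n : ℝ)] : Measure X) n K)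
    (o : X) (hcl : H448.CloseSmall n o) (C₀ : ℝ) (hC₀ : 2 ≤ C₀) : H448.PartAAt n C₀ o := by
  have hC₀1 : 1 ≤ C₀ := by linarith
  obtain ⟨A, p, env⟩ := bF X _ n K o hyp
  have bM := H446.mapsN env hcl
  have bD := H744.dropN env (H607.lowN env bM)
  obtain ⟨Q1, hQ1, bT⟩ := bT X _ n K o A p env
  obtain ⟨Q2, hQ2, bN1⟩ := bN X _ n K o A p env C₀ hC₀1
  obtain ⟨Q3, hQ3, bN2⟩ := bN X _ n K o A p env 1 le_rfl
  obtain ⟨Q4, hQ4, b5⟩ := b5 X _ n K o A p env C₀ hC₀1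
  obtain ⟨Q5, hQ5, bH⟩ := bH X _ n K o A p env C₀ hC₀1
  obtain ⟨Q, q1, q2, q3, q4, q5, -⟩ := ex_max Q1 Q2 Q3 Q4 Q5 1
  obtain ⟨R1, hR1, bT⟩ := bT Q q1
  obtain ⟨R2, hR2, bN1⟩ := bN1 Q q2
  obtain ⟨R3, hR3, bN2⟩ := bN2 Q q3
  obtain ⟨R4, hR4, b5⟩ := b5 Q q4
  obtain ⟨R5, hR5, bH⟩ := bH Q q5
  obtain ⟨R, r1, r2, r3, r4, r5, r6⟩ := ex_max R1 R2 R3 R4 R5 4
  have bT := bT R r1
  have bN1 := bN1 R r2
  have bN2 := bN2 R r3
  obtain ⟨Bh, hBh, ε4, hε4, b5⟩ := b5 R r4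
  obtain ⟨C₁, hC₁, bH⟩ := bH R r5
  have hQ1' : 1 ≤ Q := hQ1.trans q1
  have hR1' : 1 ≤ R := hR1.trans r1
  refine ⟨2 * C₁, by linarith, fun c hc => ?_⟩
  obtain ⟨Λ, hΛ, hτ, hτc⟩ := ex_lam hc
  obtain ⟨B, hB, bH⟩ := bH Λ hΛ
  refine ⟨Λ, 2 * √√Λ, max (2 * B) Bh, hτ, hτc, hBh.trans (le_max_right _ _), fun ε₀ hε₀ => ?_⟩
  have hsΛ : 0 < √√Λ := by linarith
  obtain ⟨ε, hε, hε1, s1, s2, s3⟩ := ex_eps (a := B) (b := C₁ * C₀) (c := B * √√Λ ^ 2) hε₀
    (by linarith) (by nlinarith) (by nlinarith [pow_pos hsΛ 2])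
  obtain ⟨ε2, hε2', bN1⟩ := bN1 ε hε
  obtain ⟨ε3, hε3', bN2⟩ := bN2 ε hε
  obtain ⟨ε5, hε5', bH⟩ := bH ε hε
  obtain ⟨ε', hε', e2, e3, e4, e5, -, -⟩ := ex_min hε2' hε3' hε4 hε5' one_pos one_pos
  obtain ⟨η1, hη1, bT⟩ := bT ε' hε'
  obtain ⟨A₀, hA₀, a1, a2, a3, -, -, -⟩ := ex_min hε4 hε5' (show 0 < ε₀ / 8 by positivity) one_pos
    one_pos one_pos
  obtain ⟨η4, hη4, b5⟩ := b5 A₀ hA₀ a1
  obtain ⟨η5, hη5, bH⟩ := bH A₀ hA₀ a2
  obtain ⟨δ', hδ', d1, d2, d3, -, -, -⟩ := ex_min hη4 hη1 (show 0 < ε₀ / 4 by positivity) one_pos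
    one_pos one_pos
  obtain ⟨ρ₁, hρ₁, bD⟩ := bD R Q δ' hR1' hQ1' hδ'
  obtain ⟨η, hη, g1, g2, g3, g4, g5, g6⟩ := ex_min hη1 hε2' hε3' hη4 hη5 hρ₁
  obtain ⟨ρ, hρη, u, uu, hcfg⟩ := bM R Q η η hR1' hQ1' hη hη
  have hρ := hcfg.ρ_pos
  have hdrop := bD ρ hρ (hρη.trans g6)
  have hT := bT η δ' ρ hη g1 d2 (hρη.trans g1) u uu hcfg hdrop
  have hN1 := (bN1 ε' η ρ hε' e2 hη g2 (hρη.trans g2) u uu hcfg hT).1
  have hN2 := (bN2 ε' η ρ hε' e3 hη g3 (hρη.trans g3) u uu hcfg hT).2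
  have h5 := b5 ε' η δ' ρ hε' e4 hη g4 d1 (hρη.trans g4) u uu hcfg hdrop hT
  have hF := bH ε' η ρ hε' e5 hη g5 (hρη.trans g5) u uu hcfg hT
  have hR4' : 1 ≤ R / 4 := by linarith
  have h6 := b6 X _ n K o A p env (R / 4) Q A₀ Λ δ' ρ hR4' hQ1' hA₀ hΛ hρ hcfg.Qρ
    (fun x hx a ha ha' => hdrop x (ball_subset_ball (by nlinarith) hx) a ha ha')
  exact last hρ hΛ r6 hC₀ hC₁ hB hBh hε hε1 hA₀ (by linarith) hF s1 s2 s3 hN1 hN2 h5 h6

/-- **Part A** at a point with almost Euclidean small balls. -/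
theorem partAN (X : Type u) [MetricSpace X] [CompleteSpace X] [SecondCountableTopology X]
    [MeasurableSpace X] [BorelSpace X] (n : ℕ) (K : ℝ) (hyp : HypL (μH[(n : ℝ)] : Measure X) n K)
    (o : X) (hcl : H448.CloseSmall n o) (C₀ : ℝ) (hC₀ : 2 ≤ C₀) : H448.PartAAt n C₀ o :=
  partA_ofN H751.blk_F' H744.blk_H6 (H155.blk_T H196.blk_R12) H597.blk_near
    (H358.ci_H5 (fun M _ _ _ _ _ m n K o A p e => H655.sb_E4 e)
      (fun M _ _ _ _ _ m n K o A p e => H771.sb_gout e)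
      (fun M _ _ _ _ _ m n K o A p e => H196.sb_RR e)
      (fun M _ _ _ _ _ m n K o A p e => H448.sb_Rel e)) H703.blk_H234 X n K hyp o hcl C₀ hC₀

end Vale.Agent.P242.H71
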