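import Vale.Agent.P242X.Glue
import Vale.Agent.N242.PartA
import Vale.Agent.N242.Chart
import Vale.Agent.N242.Conv

/-!
# P242: regular points are the points with almost isometric charts
-/

open MeasureTheory Set Filter Topology unitInterval Vale.Agent.P242.H719 Vale.Agent.P242W
open scoped ENNReal NNReal MeasureTheory

universe u

namespace Vale.Agent.N242

section
variable {X : Type u} [MetricSpace X] [CompleteSpace X] [SecondCountableTopology X]
  [MeasurableSpace X] [BorelSpace X] {n : ℕ} {K : ℝ}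

/-- one Euclidean tangent gives charts with every constant `L > 1` -/
theorem charts (h : P242.H71.HypL (μH[(n : ℝ)] : Measure X) n K) {p : X}
    (hp : ∃ (Y : Type u) (_ : MetricSpace Y) (q : Y), IsTangent p q ∧
      ∃ e : Y ≃ᵢ EuclideanSpace ℝ (Fin n), e q = 0) {L : ℝ} (hL : 1 < L) :
    ∃ U : Set X, IsOpen U ∧ p ∈ U ∧ BiLipChart n L U := by
  obtain ⟨Y, _, q, ⟨-, r, hr, hr0, hS⟩, e, he⟩ := hp
  obtain ⟨C₀, hC₀, H⟩ := chart_of'.{u} n hL
  refine H (P242.H71.partAN X n K h p (fun η hη r₁ hr₁ => ?_) C₀ hC₀)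
  have h1 := P233.RegCh.close_of_limit hr hS e he hη
  obtain ⟨j, hj1, hj2⟩ := (h1.and (hr0.eventually (gt_mem_nhds hr₁))).exists
  exact ⟨r j, hr j, hj2, hj1⟩

/-- tangents exist -/
theorem exists_tangent (h : P242.H71.HypL (μH[(n : ℝ)] : Measure X) n K) (p : X) :
    ∃ (Y : Type u) (_ : MetricSpace Y) (q : Y), IsTangent p q := by
  set r : ℕ → ℝ := fun j => 1 / ((j : ℝ) + 1) with hrd
  have hr : ∀ j, 0 < r j := fun j => by positivity
  have hlim : Tendsto r atTop (𝓝 0) := tendsto_one_div_add_atTop_nhds_zero_nat (𝕜 := ℝ)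
  obtain ⟨φ, hφ, Y, iY, q, hY, hlimY⟩ := P233.RegCh.precompact (p := p) hr (by
    intro R δ hR hδ
    obtain ⟨N, s₀, hs₀, h⟩ :=
      P233.RegCh.cover_small h.two_le h.full h.rcd.fin h.rcd.cd p R δ hR hδ
    refine ⟨N, ?_⟩
    filter_upwards [hlim.eventually (gt_mem_nhds hs₀)] with j hj
    exact h (r j) (hr j) hj)
  exact ⟨Y, iY, q, hY, r ∘ φ, fun j => hr _, hlim.comp hφ.tendsto_atTop, hlimY⟩

end

theorem main (X : Type u) [MetricSpace X] [CompleteSpace X] [TopologicalSpace.SeparableSpace X]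
    [MeasurableSpace X] [BorelSpace X] [MeasurableSpace C(I, X)] [BorelSpace C(I, X)]
    (n : ℕ) (hn : 2 ≤ n) (K : ℝ) (c : ℝ≥0) (hc : c ≠ 0)
    (h : IsRCD IsWeakUG (c • μH[(n : ℝ)] : Measure X) K n) (p : X) :
    (IsRegular n p → ∃ U : Set X, IsOpen U ∧ p ∈ U ∧ ∃ L : ℝ, 1 ≤ L ∧ BiLipChart n L U) ∧
    [IsRegular n p,
      ∃ (Y : Type u) (_ : MetricSpace Y) (q : Y), IsTangent p q ∧
        ∃ e : Y ≃ᵢ EuclideanSpace ℝ (Fin n), e q = 0,
      ∀ L : ℝ, 1 < L → ∃ U : Set X, IsOpen U ∧ p ∈ U ∧ BiLipChart n L U].TFAE ∧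
    (IsRegular n p → ∀ L : ℝ, 1 < L → ∀ᶠ x in 𝓝 p, ∀ (Y : Type u) [MetricSpace Y] (q : Y),
      IsTangent x q → ∃ F : Y ≃ EuclideanSpace ℝ (Fin n), F q = 0 ∧
        ∀ a b, L⁻¹ * dist a b ≤ dist (F a) (F b) ∧ dist (F a) (F b) ≤ L * dist a b) := by
  have := UniformSpace.secondCountable_of_separable X
  obtain ⟨h1, h2⟩ := P242X.unscale hc
    (fun hm f G => (P242X.ags X IsWeakUG (by simp) _ hm f G).1)
    (by exact_mod_cast (show 1 < n by omega)) (Or.inl h) p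
  have hyp : P242.H71.HypL (μH[(n : ℝ)] : Measure X) n K :=
    ⟨hn, rfl, h1, ⟨h2.ne, h2.fin, h2.cd, h2.quadratic⟩⟩
  have h12 : IsRegular n p → ∃ (Y : Type u) (_ : MetricSpace Y) (q : Y), IsTangent p q ∧
      ∃ e : Y ≃ᵢ EuclideanSpace ℝ (Fin n), e q = 0 := fun hp => by
    obtain ⟨Y, iY, q, hT⟩ := exists_tangent hyp p
    exact ⟨Y, iY, q, hT, hp Y q hT⟩
  refine ⟨fun hp => ?_, ?_, fun hp L hL => ?_⟩
  · obtain ⟨U, hU, hpU, hC⟩ := charts hyp (h12 hp) one_lt_two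
    exact ⟨U, hU, hpU, 2, one_le_two, hC⟩
  · tfae_have 1 → 2 := h12
    tfae_have 2 → 3 := fun hp L hL => charts hyp hp hL
    tfae_have 3 → 1 := regular_of_charts
    tfae_finish
  · obtain ⟨U, hU, hpU, hC⟩ := charts hyp (h12 hp) hL
    filter_upwards [hU.mem_nhds hpU] with x hx Y _ q hT
    exact tangent_bilip hL.le hU hx hC hT

end Vale.Agent.N242
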