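import Vale.Agent.N242.Step
import Vale.Agent.P242.H696.PartB

/-!
# P242: the limit map of the gluing scheme is almost isometric
-/

open scoped RealInnerProductSpace Topology
open Metric Set Filter

noncomputable section

namespace Vale.Agent.N242

open Vale.Agent.P242 Vale.Agent.P242.PB

universe u

section
variable {X : Type u} {E : Type} [MetricSpace X] [NormedAddCommGroup E] [InnerProductSpace ℝ E]
variable {P : Par} {κ θ θ' B3 : ℝ} {A : Data X E}

lemma err_le' (S : SmallPar P κ θ θ' B3) (H : Hyp P A) {k : ℕ} (s : St P A κ θ θ' B3 k) (x : X)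
    (v : E) : |‖s.J x v‖ ^ 2 - A.N k x v ^ 2| ≤ (θ * P.ε + 2 * B3 * P.δ) * A.N k x v ^ 2 := by
  have h1 := s.I3 x v v
  rw [real_inner_self_eq_norm_sq, H.gN] at h1
  have h2 := s.I3Δ x v v
  have h3 := s.I3R x v v
  have hm := BC.mm_le S H k x v
  have hm0 : 0 ≤ mm P A k x v := BC.mm_nonneg k x v
  have hN0 : 0 ≤ A.N k x v := apply_nonneg _ _
  have hθ : 0 ≤ θ := le_trans (by linarith [S.C1]) S.θ1
  have h4 : θ * mm P A k x v * mm P A k x v ≤ θ * P.ε * A.N k x v ^ 2 := by
    have h5 : mm P A k x v * mm P A k x v ≤ (√P.ε * A.N k x v) * (√P.ε * A.N k x v) :=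
      mul_le_mul hm hm hm0 (hm0.trans hm)
    have h6 : (√P.ε * A.N k x v) * (√P.ε * A.N k x v) = P.ε * A.N k x v ^ 2 := by
      have := Real.mul_self_sqrt S.ε0
      calc (√P.ε * A.N k x v) * (√P.ε * A.N k x v)
          = (√P.ε * √P.ε) * A.N k x v ^ 2 := by ring
        _ = _ := by rw [this]
    rw [h6] at h5
    have := mul_le_mul_of_nonneg_left h5 hθ
    linarith
  have h7 : B3 * ∑ j ∈ Finset.range (k + 1), A.D j x * A.N j x v * A.N j x v
      ≤ 2 * B3 * P.δ * A.N k x v ^ 2 := by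
    have h8 : ∑ j ∈ Finset.range (k + 1), A.D j x * A.N j x v * A.N j x v
        ≤ (∑ j ∈ Finset.range (k + 1), A.D j x) * (2 * A.N k x v ^ 2) := by
      rw [Finset.sum_mul]
      refine Finset.sum_le_sum fun j hj => ?_
      have h9 := H.h7 j k (by have := Finset.mem_range.1 hj; omega) x v
      have h10 := mul_le_mul_of_nonneg_left h9 (BC.D_nonneg H j x)
      linarith
    have h11 := mul_le_mul_of_nonneg_right (H.h6c (k + 1) x)
      (show 0 ≤ 2 * A.N k x v ^ 2 by positivity)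
    have h12 := mul_le_mul_of_nonneg_left (h8.trans h11) S.hB3
    linarith
  have h13 : ‖s.J x v‖ ^ 2 - A.N k x v ^ 2 = s.R x v v + s.Δ x v v := by rw [h1]; ring
  rw [h13]
  refine (abs_add_le _ _).trans ?_
  linarith

lemma abs_sub_le_of_sq {a N η : ℝ} (ha : 0 ≤ a) (hN : 0 ≤ N)
    (h : |a ^ 2 - N ^ 2| ≤ η * N ^ 2) : |a - N| ≤ η * N := by
  rcases hN.eq_or_lt with h0 | h0
  · subst h0
    have h1 : |a ^ 2| ≤ 0 := by simpa using h
    have h2 : a ^ 2 = 0 := abs_nonpos_iff.1 h1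
    have h3 : a = 0 := by simpa using h2
    simp [h3]
  · have e : a ^ 2 - N ^ 2 = (a - N) * (a + N) := by ring
    rw [e, abs_mul, abs_of_nonneg (by linarith : 0 ≤ a + N)] at h
    have h1 : |a - N| * N ≤ |a - N| * (a + N) :=
      mul_le_mul_of_nonneg_left (by linarith) (abs_nonneg _)
    have h2 : |a - N| * N ≤ (η * N) * N := by nlinarith
    exact le_of_mul_le_mul_right h2 h0

/-- **The limit map is almost isometric.** -/
theorem sharpB [FiniteDimensional ℝ E] [Nonempty X] (S : SmallPar P κ θ θ' B3) (H : Hyp P A)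
    {η : ℝ} (hη1 : η ≤ 1) (a1 : √P.ε ≤ η) (a2 : P.ε * P.Λ ≤ η)
    (a3 : θ * P.ε + 2 * B3 * P.δ ≤ η)
    (step : ∀ k (s : St P A κ θ θ' B3 k), ∃ s' : St P A κ θ θ' B3 (k + 1),
      ∀ x, ‖s'.F x - s.F x‖ ≤ √P.ε * (P.r (k + 1) / 100)) :
    ∃ G : X → E, (∀ x y, |‖G x - G y‖ - dist x y| ≤ 4 * η * dist x y) ∧
      (∀ [CompleteSpace X] (x₀ : X) (k : ℕ), DenseAt P A x₀ k → ∀ z, ‖z - G x₀‖ ≤ P.r k / 4 →
        ∃ x, dist x₀ x ≤ 8 * P.r k ∧ G x = z) := by
  have hs0 : 0 ≤ √P.ε := Real.sqrt_nonneg _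
  have hη0 : 0 ≤ η := hs0.trans a1
  obtain ⟨s0⟩ := BC.start (θ := θ) (θ' := θ') S H
  choose nx hnx using step
  let s : ∀ k, St P A κ θ θ' B3 k := fun k => Nat.rec s0 (fun k s => nx k s) k
  have hs' : ∀ k x, ‖(s (k + 1)).F x - (s k).F x‖ ≤ √P.ε * (P.r (k + 1) / 100) :=
    fun k x => hnx k _ x
  have hs : ∀ k x, ‖(s (k + 1)).F x - (s k).F x‖ ≤ P.r (k + 1) / 100 := by
    intro k x
    refine (hs' k x).trans ?_
    have h1 := S.r_pos (k + 1)
    have h2 : √P.ε ≤ 1 := a1.trans hη1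
    nlinarith
  obtain ⟨G, hG, -, hopen⟩ := BC.limit_map S H s hs
  refine ⟨G, ?_, hopen⟩
  set T := BC.tower S H s hs with hT
  have hr1 : ∀ k, P.r (k + 1) ≤ P.r k / 100 := T.r1
  have hrt : Tendsto P.r atTop (𝓝 0) := T.r_tendsto
  -- the sharper distance to the limit
  have hF : ∀ k m x, ‖(s (k + m)).F x - (s k).F x‖ ≤
      √P.ε * ((P.r (k + 1) - P.r (k + m + 1)) / 50) := by
    intro k m x
    induction m with
    | zero => simp
    | succ m ih =>
      have h1 := hs' (k + m) x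
      have h2 := hr1 (k + m + 1)
      have h3 := S.r_pos (k + m + 1)
      have h4 : ‖(s (k + (m + 1))).F x - (s k).F x‖ ≤ ‖(s (k + m + 1)).F x - (s (k + m)).F x‖ +
          ‖(s (k + m)).F x - (s k).F x‖ := by
        have := norm_add_le ((s (k + m + 1)).F x - (s (k + m)).F x) ((s (k + m)).F x - (s k).F x)
        rwa [sub_add_sub_cancel] at this
      have h5 : √P.ε * (P.r (k + m + 1) / 100) + √P.ε * ((P.r (k + 1) - P.r (k + m + 1)) / 50) ≤
          √P.ε * ((P.r (k + 1) - P.r (k + m + 1 + 1)) / 50) := by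
        rw [← mul_add]
        exact mul_le_mul_of_nonneg_left (by linarith) hs0
      have e : k + (m + 1) + 1 = k + m + 1 + 1 := by ring
      rw [e]
      linarith
  have hG' : ∀ k x, ‖G x - (s k).F x‖ ≤ √P.ε * (P.r (k + 1) / 50) := by
    intro k x
    have h1 : ∀ m, ‖G x - (s k).F x‖ ≤ √P.ε * (P.r (k + 1) / 50) + P.r (m + (k + 1)) / 50 := by
      intro m
      have h2 := hF k m x
      have h3 := hG (k + m) x
      have h4 : ‖G x - (s k).F x‖ ≤ ‖G x - (s (k + m)).F x‖ + ‖(s (k + m)).F x - (s k).F x‖ := by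
        have := norm_add_le (G x - (s (k + m)).F x) ((s (k + m)).F x - (s k).F x)
        rwa [sub_add_sub_cancel] at this
      have h5 := S.r_pos (k + m + 1)
      have h6 : √P.ε * ((P.r (k + 1) - P.r (k + m + 1)) / 50) ≤ √P.ε * (P.r (k + 1) / 50) :=
        mul_le_mul_of_nonneg_left (by linarith) hs0
      have e : m + (k + 1) = k + m + 1 := by ring
      rw [e]
      linarith
    have h2 : Tendsto (fun m => √P.ε * (P.r (k + 1) / 50) + P.r (m + (k + 1)) / 50) atTop
        (𝓝 (√P.ε * (P.r (k + 1) / 50) + 0 / 50)) :=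
      tendsto_const_nhds.add ((hrt.comp (tendsto_add_atTop_nat (k + 1))).div_const 50)
    rw [zero_div, add_zero] at h2
    exact ge_of_tendsto' h2 h1
  intro x y
  rcases eq_or_ne x y with rfl | hxy
  · simp
  have hd : 0 < dist x y := dist_pos.2 hxy
  obtain ⟨k, h1, h2⟩ := T.exists_scale hd (T.diam x y)
  change P.r (k + 1) ≤ dist x y at h1
  change dist x y ≤ P.r k at h2
  have hrk := S.r_pos k
  have hrk1 := S.r_pos (k + 1)
  set d := dist x y with hdd
  set v := A.u y - A.u x with hv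
  have b1 : ‖G x - (s k).F x‖ ≤ η * d / 50 := by
    refine (hG' k x).trans ?_
    have := mul_le_mul a1 h1 hrk1.le hη0
    linarith
  have b2 : ‖G y - (s k).F y‖ ≤ η * d / 50 := by
    refine (hG' k y).trans ?_
    have := mul_le_mul a1 h1 hrk1.le hη0
    linarith
  have b3 : ‖(s k).F y - (s k).F x - (s k).J x v‖ ≤ η * d / 50 := by
    refine ((s k).I1 x y h2).trans ?_
    have h3 := BC.mp_le S H h2
    have hκ0 := S.κ0
    have hκ : κ ≤ 1 / 100 := by
      have h4 := S.κΛ
      have h5 := S.hΛ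
      nlinarith
    have h4 : √P.ε * (2 * P.r k) ≤ η * (2 * P.r k) :=
      mul_le_mul_of_nonneg_right a1 (by positivity)
    calc κ / P.r k * d * mp P A k x y v ≤ κ / P.r k * d * (η * (2 * P.r k)) :=
          mul_le_mul_of_nonneg_left (h3.trans h4) (by positivity)
      _ = κ * (2 * (η * d)) := by field_simp
      _ ≤ 1 / 100 * (2 * (η * d)) := mul_le_mul_of_nonneg_right hκ (by positivity)
      _ = η * d / 50 := by ring
  have b4 : |A.N k x v - d| ≤ η * d := by
    have h3 := H.h1a k x y (S.C0r k h2)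
    rw [BC.norm_symm] at h3
    refine h3.trans ?_
    rw [S.r_succ' k, ← mul_assoc]
    exact mul_le_mul a2 h1 hrk1.le hη0
  have hN0 : 0 ≤ A.N k x v := apply_nonneg _ _
  have b5 : |‖(s k).J x v‖ - A.N k x v| ≤ η * A.N k x v := by
    refine abs_sub_le_of_sq (norm_nonneg _) hN0 ?_
    exact (err_le' S H (s k) x v).trans (mul_le_mul_of_nonneg_right a3 (sq_nonneg _))
  have b6 : η * A.N k x v ≤ 2 * (η * d) := by
    have h3 := (abs_le.1 b4).2
    have h4 : η * d ≤ d := by nlinarith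
    have h5 : A.N k x v ≤ 2 * d := by linarith
    nlinarith
  have c1 : |‖G x - G y‖ - ‖(s k).J x v‖| ≤ 3 * (η * d / 50) := by
    rw [norm_sub_rev]
    refine (abs_norm_sub_norm_le _ _).trans ?_
    have e : G y - G x - (s k).J x v = (G y - (s k).F y) - (G x - (s k).F x) +
        ((s k).F y - (s k).F x - (s k).J x v) := by abel
    rw [e]
    have d1 := norm_add_le ((G y - (s k).F y) - (G x - (s k).F x))
      ((s k).F y - (s k).F x - (s k).J x v)
    have d2 := norm_sub_le (G y - (s k).F y) (G x - (s k).F x)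
    linarith
  have c2 := abs_le.1 c1
  have c3 := abs_le.1 b4
  have c4 := abs_le.1 b5
  have c5 : 0 ≤ η * d := by positivity
  rw [abs_le]
  constructor <;> nlinarith [c2.1, c2.2, c3.1, c3.2, c4.1, c4.2]

end

end Vale.Agent.N242
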